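import Vale.Agent.P313.H427.Par5

/-!
The space bound with real exponents.
-/

namespace Vale.Agent.P313.H427

/-- The space bound. -/
noncomputable def sp (n : ℕ) : ℝ :=
  Real.logb 2 (n + 2) ^ ((4 : ℝ) / 3) * Real.logb 2 (Real.logb 2 (n + 2) + 1) ^ ((2 : ℝ) / 3)

theorem one_le_logb (n : ℕ) : 1 ≤ Real.logb 2 (n + 2) := by
  rw [Real.le_logb_iff_rpow_le (by norm_num) (by positivity), Real.rpow_one]
  have : (0 : ℝ) ≤ n := Nat.cast_nonneg n
  linarith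

theorem one_le_logb2 (n : ℕ) : 1 ≤ Real.logb 2 (Real.logb 2 (n + 2) + 1) := by
  have h1 := one_le_logb n
  rw [Real.le_logb_iff_rpow_le (by norm_num) (by positivity), Real.rpow_one]
  linarith

theorem one_le_sp (n : ℕ) : 1 ≤ sp n := by
  unfold sp
  have h1 := Real.one_le_rpow (one_le_logb n) (show (0 : ℝ) ≤ 4 / 3 by norm_num)
  have h2 := Real.one_le_rpow (one_le_logb2 n) (show (0 : ℝ) ≤ 2 / 3 by norm_num)
  nlinarith

theorem sp_nonneg (n : ℕ) : 0 ≤ sp n := zero_le_one.trans (one_le_sp n)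

theorem natLog_le_logb (m : ℕ) (hm : 1 ≤ m) : (Nat.log 2 m : ℝ) ≤ Real.logb 2 m := by
  rw [Real.le_logb_iff_rpow_le (by norm_num) (by exact_mod_cast hm), Real.rpow_natCast]
  exact_mod_cast Nat.pow_log_le_self 2 (by omega)

theorem rk_sq_le (M : RTM) (c : ℕ) :
    ∃ C : ℕ, ∀ x, ((rkf (hh M c x) ^ 2 : ℕ) : ℝ) ≤ C * sp x.length := by
  obtain ⟨C, hC1, hC⟩ := Sel.sh_le (M := M) (c := c)
  set K : ℝ := (C : ℝ) ^ 2 * (Real.logb 2 C + 2) with hK
  refine ⟨⌈K ^ ((2 : ℝ) / 3)⌉₊, fun x => ?_⟩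
  set ℓ : ℝ := Real.logb 2 (x.length + 2) with hl
  set lam : ℝ := Real.logb 2 (ℓ + 1) with hlam
  have hl1 : 1 ≤ ℓ := one_le_logb x.length
  have hlam1 : 1 ≤ lam := one_le_logb2 x.length
  have hCr : (1 : ℝ) ≤ C := by exact_mod_cast hC1
  have hlogC : 0 ≤ Real.logb 2 C := Real.logb_nonneg (by norm_num) hCr
  have hK0 : 0 ≤ K := by positivity
  have hh1 := hh_pos (M := M) (c := c) x
  have hhr : ((hh M c x : ℕ) : ℝ) ≤ C * ℓ := by
    have h1 : ((hh M c x : ℕ) : ℝ) ≤ C * (Sel.Ln x : ℝ) := by exact_mod_cast hC x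
    have h2 : (Sel.Ln x : ℝ) ≤ ℓ := by
      have := natLog_le_logb (x.length + 2) (by omega)
      push_cast at this
      exact this
    nlinarith
  have hlog : ((Nat.log 2 (hh M c x) + 1 : ℕ) : ℝ) ≤ (Real.logb 2 C + 2) * lam := by
    have h1 := natLog_le_logb (hh M c x) hh1
    have h2 : Real.logb 2 (hh M c x) ≤ Real.logb 2 (C * ℓ) :=
      Real.logb_le_logb_of_le (by norm_num) (by exact_mod_cast hh1) hhr
    have h3 : Real.logb 2 (C * ℓ) = Real.logb 2 C + Real.logb 2 ℓ :=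
      Real.logb_mul (by positivity) (by positivity)
    have h4 : Real.logb 2 ℓ ≤ lam :=
      Real.logb_le_logb_of_le (by norm_num) (by linarith) (by linarith)
    push_cast
    nlinarith
  have hcube : ((rkf (hh M c x) : ℕ) : ℝ) ^ 3 ≤ K * (ℓ ^ 2 * lam) := by
    have h1 := (ppx (M := M) (c := c) x).toCb.le
    have h2 : ((rkf (hh M c x) : ℕ) : ℝ) ^ 3 ≤
        ((hh M c x : ℕ) : ℝ) ^ 2 * ((Nat.log 2 (hh M c x) + 1 : ℕ) : ℝ) := by exact_mod_cast h1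
    refine h2.trans ?_
    calc ((hh M c x : ℕ) : ℝ) ^ 2 * ((Nat.log 2 (hh M c x) + 1 : ℕ) : ℝ)
        ≤ (C * ℓ) ^ 2 * ((Real.logb 2 C + 2) * lam) := by
          apply mul_le_mul (pow_le_pow_left₀ (Nat.cast_nonneg _) hhr 2) hlog
            (Nat.cast_nonneg _) (by positivity)
      _ = K * (ℓ ^ 2 * lam) := by rw [hK]; ring
  have h5 : ((rkf (hh M c x) ^ 2 : ℕ) : ℝ) =
      (((rkf (hh M c x) : ℕ) : ℝ) ^ 3) ^ ((2 : ℝ) / 3) := by
    rw [← Real.rpow_natCast, ← Real.rpow_mul (Nat.cast_nonneg _)]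
    push_cast
    rw [show (3 : ℝ) * (2 / 3) = (2 : ℕ) by norm_num, Real.rpow_natCast]
  have h6 : (ℓ ^ 2 * lam) ^ ((2 : ℝ) / 3) = ℓ ^ ((4 : ℝ) / 3) * lam ^ ((2 : ℝ) / 3) := by
    rw [Real.mul_rpow (by positivity) (by positivity), ← Real.rpow_natCast ℓ 2,
      ← Real.rpow_mul (by positivity)]
    norm_num
  rw [h5]
  calc (((rkf (hh M c x) : ℕ) : ℝ) ^ 3) ^ ((2 : ℝ) / 3) ≤ (K * (ℓ ^ 2 * lam)) ^ ((2 : ℝ) / 3) :=
        Real.rpow_le_rpow (by positivity) hcube (by norm_num)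
    _ = K ^ ((2 : ℝ) / 3) * (ℓ ^ ((4 : ℝ) / 3) * lam ^ ((2 : ℝ) / 3)) := by
        rw [Real.mul_rpow hK0 (by positivity), h6]
    _ ≤ (⌈K ^ ((2 : ℝ) / 3)⌉₊ : ℝ) * (ℓ ^ ((4 : ℝ) / 3) * lam ^ ((2 : ℝ) / 3)) := by
        apply mul_le_mul_of_nonneg_right (Nat.le_ceil _) (by positivity)

/-- The three space bounds of the assembly. -/
theorem space_bounds (M : RTM) (c : ℕ) : ∃ c1 : ℕ,
    (∀ x, (Nat.log 2 (H126.nSd (parx M c x)) : ℝ) ≤ c1 * sp x.length + c1) ∧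
    (∀ x, (((parx M c x).L * (Nat.log 2 (parx M c x).q + 1) : ℕ) : ℝ) ≤
      c1 * sp x.length + c1) ∧
    (∀ x, ((((parx M c x).S * (parx M c x).m + 1) *
      (Nat.log 2 (x.length + Bx M c x + 2) + 1) : ℕ) : ℝ) ≤ c1 * sp x.length + c1) := by
  obtain ⟨C, hC⟩ := rk_sq_le M c
  refine ⟨60000000000000000 * C, fun x => ?_, fun x => ?_, fun x => ?_⟩
  · have h1 : (Nat.log 2 (H126.nSd (parx M c x)) : ℝ) ≤
        60000000000000000 * ((rkf (hh M c x) ^ 2 : ℕ) : ℝ) := by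
      exact_mod_cast log_nSd_le (M := M) (c := c) x
    have h2 := hC x
    have h3 : (0 : ℝ) ≤ C := Nat.cast_nonneg C
    push_cast at *
    nlinarith
  · have h1 : (((parx M c x).L * (Nat.log 2 (parx M c x).q + 1) : ℕ) : ℝ) ≤
        200000000 * ((rkf (hh M c x) ^ 2 : ℕ) : ℝ) := by
      exact_mod_cast log_tape_le (M := M) (c := c) x
    have h2 := hC x
    have h3 : (0 : ℝ) ≤ C := Nat.cast_nonneg C
    have h4 : (0 : ℝ) ≤ ((rkf (hh M c x) ^ 2 : ℕ) : ℝ) := Nat.cast_nonneg _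
    refine h1.trans ?_
    push_cast at *
    nlinarith
  · have h1 : ((((parx M c x).S * (parx M c x).m + 1) *
        (Nat.log 2 (x.length + Bx M c x + 2) + 1) : ℕ) : ℝ) ≤
        50000000000000 * ((rkf (hh M c x) ^ 2 : ℕ) : ℝ) := by
      exact_mod_cast levels_log_le (M := M) (c := c) x
    have h2 := hC x
    have h3 : (0 : ℝ) ≤ C := Nat.cast_nonneg C
    have h4 : (0 : ℝ) ≤ ((rkf (hh M c x) ^ 2 : ℕ) : ℝ) := Nat.cast_nonneg _
    refine h1.trans ?_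
    push_cast at *
    nlinarith

end Vale.Agent.P313.H427
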