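import Mathlib

/-!
Parameters: pure inequalities. Everything is a function of `h` (number of bits of the number of
states, of the time and of the length of the input) and of a few constants.
-/

namespace Vale.Agent.P313.H427

/-! ### Basic inequalities -/

/-- `rk` is the integer cube root of `h ^ 2 (log h + 1)`. -/
structure Cb (h rk : ℕ) : Prop where
  h1 : 1 ≤ h
  le : rk ^ 3 ≤ h ^ 2 * (Nat.log 2 h + 1)
  lt : h ^ 2 * (Nat.log 2 h + 1) < (rk + 1) ^ 3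

theorem log_succ_le {h : ℕ} (h1 : 1 ≤ h) : Nat.log 2 h + 1 ≤ h := by
  have := Nat.log_lt_self 2 (show h ≠ 0 by omega)
  omega

namespace Cb

variable {h rk : ℕ}

theorem rk_pos (c : Cb h rk) : 1 ≤ rk := by
  by_contra h0
  have h2 : rk = 0 := by omega
  have h3 := c.lt
  rw [h2] at h3
  have h4 : 1 ≤ h ^ 2 * (Nat.log 2 h + 1) :=
    Nat.mul_pos (pow_pos (by have := c.h1; omega) 2) (by omega)
  norm_num at h3
  have := c.h1
  omega

theorem rk_le (c : Cb h rk) : rk ≤ h := by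
  have h2 : rk ^ 3 ≤ h ^ 3 := c.le.trans (by
    calc h ^ 2 * (Nat.log 2 h + 1) ≤ h ^ 2 * h := Nat.mul_le_mul_left _ (log_succ_le c.h1)
      _ = h ^ 3 := by ring)
  exact le_of_pow_le_pow_left₀ (by norm_num) (Nat.zero_le _) h2

theorem lt_sq (c : Cb h rk) : h < (rk + 1) ^ 2 := by
  have h2 : h ^ 2 < ((rk + 1) ^ 2) ^ 2 := by
    calc h ^ 2 = h ^ 2 * 1 := by ring
      _ ≤ h ^ 2 * (Nat.log 2 h + 1) := Nat.mul_le_mul_left _ (by omega)
      _ < (rk + 1) ^ 3 := c.lt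
      _ ≤ (rk + 1) ^ 4 := Nat.pow_le_pow_right (by omega) (by norm_num)
      _ = ((rk + 1) ^ 2) ^ 2 := by ring
  exact lt_of_pow_lt_pow_left₀ 2 (Nat.zero_le _) h2

theorem le_sq (c : Cb h rk) : h ≤ 4 * rk ^ 2 := by
  have h2 := c.lt_sq
  have h3 := c.rk_pos
  nlinarith

theorem le_two_pow (c : Cb h rk) : h ≤ 2 ^ (2 * rk) := by
  have h2 := c.lt_sq
  have h3 : rk + 1 ≤ 2 ^ rk := Nat.lt_two_pow_self
  calc h ≤ (rk + 1) ^ 2 := h2.le
    _ ≤ (2 ^ rk) ^ 2 := Nat.pow_le_pow_left h3 2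
    _ = 2 ^ (2 * rk) := by rw [← pow_mul]; ring_nf

theorem cube_le (c : Cb h rk) : h ^ 2 * (Nat.log 2 h + 1) ≤ 8 * rk ^ 3 := by
  have h2 := c.lt
  have h3 := c.rk_pos
  have h4 : (rk + 1) ^ 3 ≤ (2 * rk) ^ 3 := Nat.pow_le_pow_left (by omega) 3
  calc h ^ 2 * (Nat.log 2 h + 1) ≤ (rk + 1) ^ 3 := h2.le
    _ ≤ (2 * rk) ^ 3 := h4
    _ = 8 * rk ^ 3 := by ring

/-- If `rk * S ≤ C h` and `m ≤ C' (log h + 1)` then `S m h ≤ 8 C C' rk ^ 2`. -/
theorem stages_le (c : Cb h rk) {S m C C' : ℕ} (hS : rk * S ≤ C * h)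
    (hm : m ≤ C' * (Nat.log 2 h + 1)) : S * m * h ≤ 8 * C * C' * rk ^ 2 := by
  have h1 := c.rk_pos
  have h2 : rk * (S * m * h) ≤ rk * (8 * C * C' * rk ^ 2) := by
    calc rk * (S * m * h) = (rk * S) * m * h := by ring
      _ ≤ (C * h) * (C' * (Nat.log 2 h + 1)) * h := by gcongr
      _ = C * C' * (h ^ 2 * (Nat.log 2 h + 1)) := by ring
      _ ≤ C * C' * (8 * rk ^ 3) := Nat.mul_le_mul_left _ c.cube_le
      _ = rk * (8 * C * C' * rk ^ 2) := by ring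
  exact Nat.le_of_mul_le_mul_left h2 (by omega)

theorem stages_le' (c : Cb h rk) {S C : ℕ} (hS : rk * S ≤ C * h) :
    S * h ≤ 8 * C * rk ^ 2 := by
  have h1 := c.stages_le (m := Nat.log 2 h + 1) (C' := 1) hS (by omega)
  calc S * h = S * 1 * h := by ring
    _ ≤ S * (Nat.log 2 h + 1) * h := by gcongr; omega
    _ ≤ _ := by rw [mul_one] at h1; exact h1

end Cb

/-! ### The number of doublings -/

/-- The number of doublings of a stage. -/
def rr (e rk : ℕ) : ℕ := rk + Nat.log 2 rk + e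

theorem rk_le_rr (e rk : ℕ) : rk ≤ rr e rk := by unfold rr; omega

theorem rr_le {e rk : ℕ} (h : 1 ≤ rk) : rr e rk ≤ (e + 2) * rk := by
  have := log_succ_le h
  unfold rr
  nlinarith

theorem rr_pos {e rk : ℕ} (h : 1 ≤ rk) : 1 ≤ rr e rk := h.trans (rk_le_rr e rk)

/-- `r - rk` is logarithmic, but large. -/
theorem two_pow_diff {e rk : ℕ} (h : 1 ≤ rk) (he : 1 ≤ e) :
    2 ^ (e - 1) * (rk + 1) ≤ 2 ^ (rr e rk - rk) := by
  have h1 : rk + 1 ≤ 2 ^ (Nat.log 2 rk + 1) := Nat.lt_pow_succ_log_self (by norm_num) _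
  have h2 : rr e rk - rk = (e - 1) + (Nat.log 2 rk + 1) := by unfold rr; omega
  rw [h2, pow_add]
  exact Nat.mul_le_mul_left _ h1

theorem two_pow_diff' {e rk C a : ℕ} (h : 1 ≤ rk) (he : 1 ≤ e)
    (hC : C * (a * (e + 2) + 1) ≤ 2 ^ (e - 1)) :
    C * (a * rr e rk + 1) ≤ 2 ^ (rr e rk - rk) := by
  have h1 := two_pow_diff h he
  have h2 := rr_le (e := e) h
  calc C * (a * rr e rk + 1) ≤ C * (a * ((e + 2) * rk) + 1) := by gcongr
    _ ≤ C * ((a * (e + 2) + 1) * (rk + 1)) := Nat.mul_le_mul_left _ (by nlinarith)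
    _ = C * (a * (e + 2) + 1) * (rk + 1) := by ring
    _ ≤ 2 ^ (e - 1) * (rk + 1) := Nat.mul_le_mul_right _ hC
    _ ≤ _ := h1

/-! ### Quotients -/

theorem mul_div_add (u v : ℕ) (hv : 1 ≤ v) : u ≤ v * (u / v + 1) := by
  have h1 := Nat.div_add_mod u v
  have h2 := Nat.mod_lt u (show v > 0 by omega)
  nlinarith

theorem mul_div_add_le (u v k : ℕ) : v * (u / v + k) ≤ u + v * k := by
  have h1 := Nat.div_mul_le_self u v
  nlinarith

/-- `q ^ b` is large. -/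
theorem pow_ge {a r q u : ℕ} (ha : 1 ≤ a) (hr : 1 ≤ r) (hq : 2 ^ (a * r) ≤ q) {k : ℕ}
    (hk : 1 ≤ k) : 2 ^ u ≤ q ^ (u / (a * r) + k) := by
  calc 2 ^ u ≤ 2 ^ (a * r * (u / (a * r) + k)) := by
        apply Nat.pow_le_pow_right (by norm_num)
        calc u ≤ a * r * (u / (a * r) + 1) := mul_div_add u (a * r) (Nat.mul_pos ha hr)
          _ ≤ _ := Nat.mul_le_mul_left _ (by omega)
    _ = (2 ^ (a * r)) ^ (u / (a * r) + k) := by rw [pow_mul]
    _ ≤ _ := Nat.pow_le_pow_left hq _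

/-- `q ^ v` is at most `2 ^ C` if `a r v ≤ C'` with `2 C' ≤ C`. -/
theorem pow_le {a r q v C : ℕ} (ha : 1 ≤ a) (hr : 1 ≤ r) (hq : q ≤ 2 * 2 ^ (a * r))
    (hv : a * r * v ≤ C) : q ^ v ≤ 2 ^ (2 * C) := by
  have h1 : 1 ≤ a * r := Nat.mul_pos ha hr
  calc q ^ v ≤ (2 * 2 ^ (a * r)) ^ v := Nat.pow_le_pow_left hq _
    _ = 2 ^ ((a * r + 1) * v) := by rw [pow_mul 2 (a * r + 1) v, pow_succ' 2 (a * r)]
    _ ≤ 2 ^ (2 * C) := by
        apply Nat.pow_le_pow_right (by norm_num)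
        nlinarith

end Vale.Agent.P313.H427
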