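import Vale.Agent.P313.H427.Par0
import Vale.Agent.P313.BP.Phv

/-!
The concrete parameters, as functions of `h`, `rk`, `q` and `Q`, and their inequalities.
-/

namespace Vale.Agent.P313.H427

/-- `q` is about `2 ^ (ca * r)`. -/
abbrev ca : ℕ := 400
/-- `r = rk + log rk + ce`. -/
abbrev ce : ℕ := 24
/-- `q ^ b` is at least `2 ^ (cb * h)`. -/
abbrev cb : ℕ := 200
/-- The final stopping probability is at most `2 ^ (-ck * h)`. -/
abbrev ck : ℕ := 8
/-- `Th1 = 2 ^ (cT * h)`. -/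
abbrev cT : ℕ := 1000000
/-- There are `2 ^ (cD * h)` offsets. -/
abbrev cD : ℕ := 1000
/-- `2 ^ JN` is at least `2 ^ (cJ - 1) * (h + 1)`. -/
abbrev cJ : ℕ := 20
/-- `Q` is about `2 ^ (cQ * h)`. -/
abbrev cQ : ℕ := 100000000
/-- `Om = 2 ^ (cO * h)`. -/
abbrev cO : ℕ := 10000000

/-- The number of doublings. -/
def pr (rk : ℕ) : ℕ := rr ce rk
/-- The exponent of the denominators. -/
def pb (h rk : ℕ) : ℕ := cb * h / (ca * pr rk) + 1
/-- Final value of the counters. -/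
def pK (h rk : ℕ) : ℕ := ck * h / rk + 1
/-- Number of stages. -/
def pS (h rk : ℕ) : ℕ := pK h rk + (2 * h / (ca * pr rk) + 2)
/-- Factors of the scale. -/
def pTh1 (h : ℕ) : ℕ := 2 ^ (cT * h)
/-- Offsets. -/
def pD (h : ℕ) : ℕ := 2 ^ (cD * h)
/-- Levels of the product tree. -/
def pJF (rk : ℕ) : ℕ := Nat.log 2 (pr rk) + 1
/-- Newton steps. -/
def pJN (h : ℕ) : ℕ := Nat.log 2 h + cJ
/-- Bound for the exponents of the weights. -/
def pcm (h rk : ℕ) : ℕ := pb h rk + pS h rk + 1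
/-- Digits of a state. -/
def pnd (h rk : ℕ) : ℕ := h / (ca * pr rk) + 1
/-- Cells of the tape. -/
def pL (rk : ℕ) : ℕ := 310 * pr rk
/-- Digits of a chunk. -/
def pc0 (h rk : ℕ) : ℕ := h / (ca * pr rk) + 1
/-- Number of chunks. -/
def pDC (h rk : ℕ) : ℕ := pL rk / pc0 h rk + 1
/-- Length of the walk. -/
def plw (h rk : ℕ) : ℕ := 2 * pDC h rk
/-- Number of phases of a stage. -/
def pm (h rk : ℕ) : ℕ := 17 + 2 * pJF rk + 2 * pJN h

/-- The parameters. -/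
def thePar (n h rk q Q : ℕ) : BP.Par2 where
  n := n
  q := q
  b := pb h rk
  r := pr rk
  rk := rk
  K := pK h rk
  Th1 := pTh1 h
  D := pD h
  JF := pJF rk
  JN := pJN h
  cmax := pcm h rk
  nd := pnd h rk
  Lam := q ^ 34
  Q := Q
  DC := pDC h rk
  c0 := pc0 h rk
  lw := plw h rk
  Om := 2 ^ (cO * h)
  S := pS h rk

/-- Basic facts on the parameters. -/
structure PP (h rk q Q : ℕ) : Prop extends Cb h rk where
  qp : q.Prime
  q1 : 2 ^ (ca * pr rk) ≤ q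
  q2 : q ≤ 2 * 2 ^ (ca * pr rk)
  Qp : Q.Prime
  Q1 : 2 ^ (cQ * h) ≤ Q
  Q2 : Q ≤ 2 * 2 ^ (cQ * h)

namespace PP

variable {h rk q Q : ℕ}

theorem r_pos (p : PP h rk q Q) : 1 ≤ pr rk := rr_pos p.rk_pos

theorem rk_le_r (_p : PP h rk q Q) : rk ≤ pr rk := rk_le_rr _ _

theorem r_le (p : PP h rk q Q) : pr rk ≤ 26 * rk := rr_le p.rk_pos

theorem r_le_h (p : PP h rk q Q) : pr rk ≤ 26 * h := p.r_le.trans (Nat.mul_le_mul_left _ p.rk_le)

theorem ar_pos (p : PP h rk q Q) : 1 ≤ ca * pr rk := Nat.mul_pos (by norm_num) p.r_pos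

theorem q_pos (p : PP h rk q Q) : 1 ≤ q := p.qp.one_lt.le

theorem Q_pos (p : PP h rk q Q) : 1 ≤ Q := p.Qp.one_lt.le

theorem q_ge_16r (p : PP h rk q Q) : 2 ^ (16 * pr rk) ≤ q :=
  le_trans (Nat.pow_le_pow_right (by norm_num) (Nat.mul_le_mul_right _ (by norm_num))) p.q1

/-- The difference `r - rk`. -/
theorem diff_ge (p : PP h rk q Q) : 64 * (ca * pr rk + 1) ≤ 2 ^ (pr rk - rk) :=
  two_pow_diff' p.rk_pos (by norm_num) (by norm_num)

theorem pow_b_ge (p : PP h rk q Q) : 2 ^ (cb * h) ≤ q ^ pb h rk :=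
  pow_ge (by norm_num) p.r_pos p.q1 le_rfl

theorem ar_b_le (p : PP h rk q Q) : ca * pr rk * pb h rk ≤ 10600 * h := by
  have h1 := mul_div_add_le (cb * h) (ca * pr rk) 1
  have h2 := p.r_le_h
  unfold pb
  simp only [ca, cb] at *
  omega

theorem pow_b_le (p : PP h rk q Q) : q ^ pb h rk ≤ 2 ^ (2 * (10600 * h)) :=
  pow_le (by norm_num) p.r_pos p.q2 p.ar_b_le

theorem rk_K_ge (p : PP h rk q Q) : ck * h ≤ rk * pK h rk := mul_div_add _ _ p.rk_pos

theorem rk_K_le (p : PP h rk q Q) : rk * pK h rk ≤ 9 * h := by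
  have h1 := mul_div_add_le (ck * h) rk 1
  have h2 := p.rk_le
  unfold pK
  simp only [ck] at *
  omega

theorem K_le_S (h rk : ℕ) : pK h rk ≤ pS h rk := Nat.le_add_right _ _

theorem rk_S_le (p : PP h rk q Q) : rk * pS h rk ≤ 13 * h := by
  have h1 := p.rk_K_le
  have h2 := mul_div_add_le (2 * h) (ca * pr rk) 2
  have h3 : rk * (2 * h / (ca * pr rk)) ≤ 2 * h := by
    calc rk * (2 * h / (ca * pr rk)) ≤ (ca * pr rk) * (2 * h / (ca * pr rk)) := by
          apply Nat.mul_le_mul_right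
          have := p.rk_le_r
          simp only [ca]
          omega
      _ ≤ 2 * h := Nat.mul_div_le _ _
  have h4 := p.rk_le
  unfold pS
  rw [mul_add, mul_add]
  omega

/-- The weights are at most polynomial. -/
theorem ar_S_le (p : PP h rk q Q) : ca * pr rk * pS h rk ≤ 135200 * h := by
  have h1 := p.rk_S_le
  have h2 := p.r_le
  calc ca * pr rk * pS h rk ≤ ca * (26 * rk) * pS h rk := by gcongr
    _ = 10400 * (rk * pS h rk) := by simp only [ca]; ring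
    _ ≤ 10400 * (13 * h) := Nat.mul_le_mul_left _ h1
    _ = 135200 * h := by ring

theorem S_le (p : PP h rk q Q) : pS h rk ≤ 13 * h := by
  have h1 := p.rk_S_le
  have h2 := p.rk_pos
  nlinarith

theorem K_le (p : PP h rk q Q) : pK h rk ≤ 13 * h := (K_le_S h rk).trans p.S_le

theorem b_le (p : PP h rk q Q) : pb h rk ≤ 27 * h := by
  have h1 := p.ar_b_le
  have h2 := p.r_pos
  have h3 : 400 * pb h rk ≤ ca * pr rk * pb h rk := by
    apply Nat.mul_le_mul_right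
    simp only [ca]
    omega
  omega

theorem cm_le (p : PP h rk q Q) : pcm h rk ≤ 41 * h := by
  have h1 := p.b_le
  have h2 := p.S_le
  have h3 := p.h1
  unfold pcm
  omega

theorem nd_le (p : PP h rk q Q) : pnd h rk ≤ 2 * h := by
  have h1 : h / (ca * pr rk) ≤ h := Nat.div_le_self _ _
  have h3 := p.h1
  unfold pnd
  omega

/-- All coordinates. -/
theorem Nmax_le (p : PP h rk q Q) : pL rk + pcm h rk + pnd h rk ≤ 8110 * h := by
  have h1 := p.cm_le
  have h2 := p.nd_le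
  have h3 := p.r_le_h
  unfold pL
  omega

/-- Polynomials in `h` are small compared with `q`. -/
theorem poly_le (p : PP h rk q Q) {C c : ℕ} (hC : Nat.log 2 C + 1 + 2 * c + 16 ≤ ca) :
    2 ^ (16 * pr rk) * (C * h ^ c) ≤ q := by
  have h1 : C ≤ 2 ^ (Nat.log 2 C + 1) := (Nat.lt_pow_succ_log_self (by norm_num) _).le
  have h2 : h ^ c ≤ 2 ^ (2 * c * rk) := by
    calc h ^ c ≤ (2 ^ (2 * rk)) ^ c := Nat.pow_le_pow_left p.le_two_pow c
      _ = 2 ^ (2 * c * rk) := by rw [← pow_mul]; ring_nf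
  have h3 := p.rk_pos
  have h4 := p.rk_le_r
  refine le_trans ?_ p.q1
  calc 2 ^ (16 * pr rk) * (C * h ^ c)
      ≤ 2 ^ (16 * pr rk) * (2 ^ (Nat.log 2 C + 1) * 2 ^ (2 * c * rk)) := by gcongr
    _ = 2 ^ (16 * pr rk + ((Nat.log 2 C + 1) + 2 * c * rk)) := by
        rw [pow_add 2 (16 * pr rk), pow_add 2 (Nat.log 2 C + 1)]
    _ ≤ 2 ^ (ca * pr rk) := by
        apply Nat.pow_le_pow_right (by norm_num)
        have h5 : (Nat.log 2 C + 1) ≤ (Nat.log 2 C + 1) * pr rk := Nat.le_mul_of_pos_right _ (by omega)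
        have h6 : 2 * c * rk ≤ 2 * c * pr rk := Nat.mul_le_mul_left _ h4
        calc 16 * pr rk + ((Nat.log 2 C + 1) + 2 * c * rk)
            ≤ 16 * pr rk + ((Nat.log 2 C + 1) * pr rk + 2 * c * pr rk) := by omega
          _ = (Nat.log 2 C + 1 + 2 * c + 16) * pr rk := by ring
          _ ≤ ca * pr rk := Nat.mul_le_mul_right _ hC

theorem Nmax_pow_le (p : PP h rk q Q) :
    2 ^ (16 * pr rk) * (310 * (pL rk + pcm h rk + pnd h rk)) ^ 8 ≤ q := by
  have h1 := p.Nmax_le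
  refine le_trans ?_ (p.poly_le (C := 2514100 ^ 8) (c := 8) ?_)
  · gcongr
    calc (310 * (pL rk + pcm h rk + pnd h rk)) ^ 8 ≤ (2514100 * h) ^ 8 := by
          apply Nat.pow_le_pow_left; omega
      _ = 2514100 ^ 8 * h ^ 8 := by rw [mul_pow]
  · have h2 : Nat.log 2 (2514100 ^ 8) < 176 := by
      apply Nat.log_lt_of_lt_pow (by norm_num)
      norm_num
    simp only [ca]
    omega

theorem n_le_nd (p : PP h rk q Q) : 2 ^ h ≤ q ^ pnd h rk := pow_ge (by norm_num) p.r_pos p.q1 le_rfl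

theorem big_S (p : PP h rk q Q) : 2 * 2 ^ h < q ^ (pS h rk + 1 - pK h rk) := by
  have h1 : pS h rk + 1 - pK h rk = 2 * h / (ca * pr rk) + 3 := by
    unfold pS
    generalize 2 * h / (ca * pr rk) = t
    omega
  rw [h1]
  have h2 : 2 ^ (2 * h) ≤ q ^ (2 * h / (ca * pr rk) + 1) :=
    pow_ge (by norm_num) p.r_pos p.q1 le_rfl
  have h3 : 2 * 2 ^ h ≤ 2 ^ (2 * h) := by
    rw [← pow_succ']
    exact Nat.pow_le_pow_right (by norm_num) (by have := p.h1; omega)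
  have h4 := p.qp.one_lt
  calc 2 * 2 ^ h ≤ q ^ (2 * h / (ca * pr rk) + 1) := h3.trans h2
    _ < q ^ (2 * h / (ca * pr rk) + 3) := Nat.pow_lt_pow_right h4 (by omega)

/-- `2 ^ JF` is more than `r`. -/
theorem JF_gt (rk : ℕ) : pr rk < 2 ^ pJF rk := Nat.lt_pow_succ_log_self (by norm_num) _

theorem JN_ge (h : ℕ) : 2 ^ (cJ - 1) * (h + 1) ≤ 2 ^ pJN h := by
  have h1 : h + 1 ≤ 2 ^ (Nat.log 2 h + 1) := Nat.lt_pow_succ_log_self (by norm_num) _
  have h2 : pJN h = (cJ - 1) + (Nat.log 2 h + 1) := by unfold pJN; simp only [cJ]; omega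
  rw [h2, pow_add]
  exact Nat.mul_le_mul_left _ h1

theorem m_le (p : PP h rk q Q) : pm h rk ≤ 75 * (Nat.log 2 h + 1) := by
  have h1 : Nat.log 2 (pr rk) ≤ Nat.log 2 h + 5 := by
    have h2 : pr rk ≤ h * 2 ^ 5 := by
      have := p.r_le_h
      omega
    have h3 := Nat.log_mono_right (b := 2) h2
    have h4 : Nat.log 2 (h * 2 ^ 5) = Nat.log 2 h + 5 := by
      have h5 : h ≠ 0 := by have := p.h1; omega
      have := Nat.log_mul_base (b := 2) (n := h) (by norm_num) h5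
      have e5 : h * 2 ^ 5 = h * 2 * 2 * 2 * 2 * 2 := by ring
      rw [e5, Nat.log_mul_base (by norm_num) (by positivity),
        Nat.log_mul_base (by norm_num) (by positivity),
        Nat.log_mul_base (by norm_num) (by positivity),
        Nat.log_mul_base (by norm_num) (by positivity),
        Nat.log_mul_base (by norm_num) (by positivity)]
    omega
  unfold pm pJF pJN
  simp only [cJ]
  omega

/-- The levels times `h` are `O (rk ^ 2)`. -/
theorem levels_le (p : PP h rk q Q) : pS h rk * pm h rk * h ≤ 7800 * rk ^ 2 := by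
  have h1 := p.toCb.stages_le p.rk_S_le p.m_le
  calc _ ≤ _ := h1
    _ = 7800 * rk ^ 2 := by ring

theorem Sh_le (p : PP h rk q Q) : pS h rk * h ≤ 104 * rk ^ 2 := by
  have h1 := p.toCb.stages_le' p.rk_S_le
  calc _ ≤ _ := h1
    _ = 104 * rk ^ 2 := by ring

theorem r_sq_le (p : PP h rk q Q) : pr rk * pr rk ≤ 676 * rk ^ 2 := by
  have h1 := p.r_le
  calc pr rk * pr rk ≤ (26 * rk) * (26 * rk) := Nat.mul_le_mul h1 h1
    _ = 676 * rk ^ 2 := by ring

/-- The contents of the tape. -/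
theorem tape_le (p : PP h rk q Q) : q ^ pL rk ≤ 2 ^ (200000000 * rk ^ 2) := by
  have h1 : ca * pr rk * pL rk ≤ 83824000 * rk ^ 2 := by
    calc ca * pr rk * pL rk = 124000 * (pr rk * pr rk) := by simp only [ca, pL]; ring
      _ ≤ 124000 * (676 * rk ^ 2) := Nat.mul_le_mul_left _ p.r_sq_le
      _ = 83824000 * rk ^ 2 := by ring
  refine (pow_le (by norm_num) p.r_pos p.q2 h1).trans ?_
  apply Nat.pow_le_pow_right (by norm_num)
  nlinarith

theorem c0_pos (h rk : ℕ) : 1 ≤ pc0 h rk := Nat.le_add_left _ _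

theorem L_le (h rk : ℕ) : pL rk ≤ pc0 h rk * pDC h rk := mul_div_add _ _ (c0_pos h rk)

theorem pow_c0_le (p : PP h rk q Q) : q ^ pc0 h rk ≤ 2 ^ (2 * (10401 * h)) := by
  refine pow_le (by norm_num) p.r_pos p.q2 ?_
  have h1 := mul_div_add_le h (ca * pr rk) 1
  have h2 := p.r_le_h
  unfold pc0
  simp only [ca] at *
  omega

theorem pow_c0_ge (p : PP h rk q Q) : 2 ^ h ≤ q ^ pc0 h rk :=
  pow_ge (by norm_num) p.r_pos p.q1 le_rfl

theorem DC_h_le (p : PP h rk q Q) : pDC h rk * h ≤ 83834404 * rk ^ 2 := by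
  have h1 : h ≤ (ca * pr rk) * pc0 h rk := mul_div_add _ _ p.ar_pos
  have h2 : pDC h rk * pc0 h rk ≤ pL rk + pc0 h rk := by
    have := mul_div_add_le (pL rk) (pc0 h rk) 1
    rw [mul_comm]
    unfold pDC
    omega
  have h3 : (ca * pr rk) * pc0 h rk ≤ h + ca * pr rk := by
    have := mul_div_add_le h (ca * pr rk) 1
    unfold pc0
    omega
  have h4 := p.toCb.le_sq
  have h5 := p.r_le
  have h6 := p.rk_pos
  have h7 : ca * pr rk ≤ 10400 * rk ^ 2 := by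
    simp only [ca]
    nlinarith
  have h8 : (ca * pr rk) * pL rk ≤ 83824000 * rk ^ 2 := by
    calc ca * pr rk * pL rk = 124000 * (pr rk * pr rk) := by simp only [ca, pL]; ring
      _ ≤ 124000 * (676 * rk ^ 2) := Nat.mul_le_mul_left _ p.r_sq_le
      _ = 83824000 * rk ^ 2 := by ring
  calc pDC h rk * h ≤ pDC h rk * ((ca * pr rk) * pc0 h rk) := Nat.mul_le_mul_left _ h1
    _ = (ca * pr rk) * (pDC h rk * pc0 h rk) := by ring
    _ ≤ (ca * pr rk) * (pL rk + pc0 h rk) := Nat.mul_le_mul_left _ h2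
    _ = (ca * pr rk) * pL rk + (ca * pr rk) * pc0 h rk := by ring
    _ ≤ 83824000 * rk ^ 2 + (h + ca * pr rk) := by omega
    _ ≤ _ := by omega

/-- The number of seeds. -/
theorem seeds_le (p : PP h rk q Q) :
    Q ^ (2 * pDC h rk + 2 * plw h rk) ≤ 2 ^ ((cQ + 1) * 503006424 * rk ^ 2) := by
  have h1 : Q ≤ 2 ^ ((cQ + 1) * h) := by
    refine p.Q2.trans ?_
    rw [← pow_succ']
    apply Nat.pow_le_pow_right (by norm_num)
    have := p.h1
    simp only [cQ]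
    omega
  have h2 : 2 * pDC h rk + 2 * plw h rk = 6 * pDC h rk := by unfold plw; ring
  rw [h2]
  calc Q ^ (6 * pDC h rk) ≤ (2 ^ ((cQ + 1) * h)) ^ (6 * pDC h rk) := Nat.pow_le_pow_left h1 _
    _ = 2 ^ ((cQ + 1) * 6 * (pDC h rk * h)) := by rw [← pow_mul]; ring_nf
    _ ≤ 2 ^ ((cQ + 1) * 6 * (83834404 * rk ^ 2)) := by
        apply Nat.pow_le_pow_right (by norm_num)
        exact Nat.mul_le_mul_left _ p.DC_h_le
    _ = _ := by ring_nf

theorem L_eq (n : ℕ) (h rk q Q : ℕ) : (thePar n h rk q Q).L = pL rk := rfl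

theorem m_eq (n : ℕ) (h rk q Q : ℕ) : (thePar n h rk q Q).m = pm h rk := rfl

/-! ### Hypotheses of the composition of stages -/

theorem JF_le (p : PP h rk q Q) : 2 ^ pJF rk ≤ 2 * pr rk := by
  have h1 := Nat.pow_log_le_self 2 (show pr rk ≠ 0 by have := p.r_pos; omega)
  unfold pJF
  rw [pow_succ]
  omega

theorem four_r_le (p : PP h rk q Q) (c : ℕ) (hc : c ≤ 100) : 2 ^ (4 * c * pr rk) ≤ q :=
  le_trans (Nat.pow_le_pow_right (by norm_num)
    (Nat.mul_le_mul_right _ (by simp only [ca]; omega))) p.q1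

theorem three_r_le (p : PP h rk q Q) : 2 * (3 ^ pr rk + 2) ≤ q := by
  have h1 : 3 ^ pr rk ≤ 2 ^ (2 * pr rk) := by
    rw [pow_mul]; exact Nat.pow_le_pow_left (by norm_num) _
  have h2 := p.r_pos
  have h3 : 2 ^ (2 * pr rk) * 8 ≤ 2 ^ (16 * pr rk) := by
    rw [show (8 : ℕ) = 2 ^ 3 by norm_num, ← pow_add]
    exact Nat.pow_le_pow_right (by norm_num) (by omega)
  have h4 : 2 ≤ 2 ^ (2 * pr rk) := by
    calc 2 = 2 ^ 1 := by norm_num
      _ ≤ _ := Nat.pow_le_pow_right (by norm_num) (by omega)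
  have h5 := p.q_ge_16r
  omega

theorem q_ge_64 (p : PP h rk q Q) : 2 ^ 16 ≤ q :=
  le_trans (Nat.pow_le_pow_right (by norm_num) (by have := p.r_pos; omega)) p.q_ge_16r

theorem Th_eq (n : ℕ) : (thePar n h rk q Q).Th = 2 ^ rk * q ^ pb h rk * 2 ^ (cT * h) := rfl

theorem pow_q_le (p : PP h rk q Q) (v : ℕ) : q ^ v ≤ 2 ^ (20800 * v * h) := by
  have h1 : ca * pr rk * v ≤ 10400 * v * h := by
    have := p.r_le_h
    calc ca * pr rk * v ≤ ca * (26 * h) * v := by gcongr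
      _ = 10400 * v * h := by simp only [ca]; ring
  refine (pow_le (by norm_num) p.r_pos p.q2 h1).trans (le_of_eq ?_)
  ring_nf

theorem q_seven_le (p : PP h rk q Q) (n : ℕ) : 2 * q ^ 7 ≤ (thePar n h rk q Q).Th := by
  have h1 := p.pow_q_le 7
  have h2 : 2 * q ^ 7 ≤ 2 ^ (cT * h) := by
    calc 2 * q ^ 7 ≤ 2 * 2 ^ (20800 * 7 * h) := Nat.mul_le_mul_left _ h1
      _ = 2 ^ (20800 * 7 * h + 1) := by rw [← pow_succ']
      _ ≤ 2 ^ (cT * h) := by
        apply Nat.pow_le_pow_right (by norm_num)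
        have := p.h1
        simp only [cT]
        omega
  rw [Th_eq]
  have h3 : 1 ≤ 2 ^ rk * q ^ pb h rk := Nat.mul_pos (by positivity) (pow_pos p.q_pos _)
  calc 2 * q ^ 7 ≤ 1 * 2 ^ (cT * h) := by rw [one_mul]; exact h2
    _ ≤ _ := Nat.mul_le_mul_right _ h3

theorem Th1_ge (p : PP h rk q Q) {n : ℕ} (hn : n ≤ 2 ^ h) :
    400 * n ^ 5 * pr rk ^ 2 * 9 ^ pr rk ≤ pTh1 h := by
  have h1 : pr rk ≤ 2 ^ pr rk := Nat.lt_two_pow_self.le
  have h2 := p.r_le_h
  have h3 := p.h1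
  calc 400 * n ^ 5 * pr rk ^ 2 * 9 ^ pr rk
      ≤ 2 ^ 9 * (2 ^ h) ^ 5 * (2 ^ pr rk) ^ 2 * (2 ^ 4) ^ pr rk := by gcongr <;> norm_num
    _ = 2 ^ (9 + h * 5 + pr rk * 2 + 4 * pr rk) := by
        rw [pow_add, pow_add, pow_add, pow_mul, pow_mul, pow_mul]
    _ ≤ 2 ^ (cT * h) := by
        apply Nat.pow_le_pow_right (by norm_num)
        simp only [cT]
        omega

theorem Th1_ge8 (p : PP h rk q Q) {n : ℕ} (hn : n ≤ 2 ^ h) :
    8 * (400 * n ^ 5 * pr rk ^ 2 * 9 ^ pr rk) ≤ pTh1 h := by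
  have h1 : pr rk ≤ 2 ^ pr rk := Nat.lt_two_pow_self.le
  have h2 := p.r_le_h
  have h3 := p.h1
  calc 8 * (400 * n ^ 5 * pr rk ^ 2 * 9 ^ pr rk)
      ≤ 2 ^ 3 * (2 ^ 9 * (2 ^ h) ^ 5 * (2 ^ pr rk) ^ 2 * (2 ^ 4) ^ pr rk) := by
        gcongr <;> norm_num
    _ = 2 ^ (3 + (9 + h * 5 + pr rk * 2 + 4 * pr rk)) := by
        rw [pow_add, pow_add, pow_add, pow_add, pow_mul, pow_mul, pow_mul]
    _ ≤ 2 ^ (cT * h) := by
        apply Nat.pow_le_pow_right (by norm_num)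
        simp only [cT]
        omega

theorem JN_big (p : PP h rk q Q) {n : ℕ} (hn : n ≤ 2 ^ h) :
    4 * n * q ^ pb h rk ≤ 8 ^ 2 ^ pJN h := by
  have h1 := JN_ge h
  have h2 := p.pow_b_le
  calc 4 * n * q ^ pb h rk ≤ 2 ^ 2 * 2 ^ h * 2 ^ (2 * (10600 * h)) := by
        gcongr
        norm_num
    _ = 2 ^ (2 + h + 2 * (10600 * h)) := by rw [pow_add, pow_add]
    _ ≤ 2 ^ (3 * 2 ^ pJN h) := by
        apply Nat.pow_le_pow_right (by norm_num)
        simp only [cJ] at h1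
        omega
    _ = 8 ^ 2 ^ pJN h := by rw [pow_mul]; norm_num

theorem S_sq (p : PP h rk q Q) : 2 * pS h rk ≤ q ^ 2 := by
  have h1 := p.S_le
  have h2 := p.poly_le (C := 26) (c := 1) (by
    have : Nat.log 2 26 < 5 := Nat.log_lt_of_lt_pow (by norm_num) (by norm_num)
    simp only [ca]; omega)
  have h3 : 1 ≤ 2 ^ (16 * pr rk) := Nat.one_le_two_pow
  have h4 := p.q_pos
  calc 2 * pS h rk ≤ 26 * h ^ 1 := by rw [pow_one]; omega
    _ ≤ 2 ^ (16 * pr rk) * (26 * h ^ 1) := Nat.le_mul_of_pos_left _ h3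
    _ ≤ q := h2
    _ ≤ q ^ 2 := Nat.le_self_pow (by norm_num) q

theorem n_big (p : PP h rk q Q) {n : ℕ} (hn : n ≤ 2 ^ h) :
    2 * n < q ^ (pS h rk + 1 - pK h rk) :=
  lt_of_le_of_lt (Nat.mul_le_mul_left _ hn) p.big_S

theorem b_big (p : PP h rk q Q) {n : ℕ} (hn : n ≤ 2 ^ h) :
    120 * n * (pS h rk + 1) * 2 ^ (rk * pS h rk) ≤ q ^ pb h rk := by
  refine le_trans ?_ p.pow_b_ge
  have h1 := p.S_le
  have h2 := p.rk_S_le
  have h3 := p.h1
  have h4 : h < 2 ^ h := Nat.lt_two_pow_self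
  have h5 : pS h rk + 1 ≤ 2 ^ 4 * 2 ^ h := by omega
  calc 120 * n * (pS h rk + 1) * 2 ^ (rk * pS h rk)
      ≤ 2 ^ 7 * 2 ^ h * (2 ^ 4 * 2 ^ h) * 2 ^ (13 * h) := by gcongr <;> norm_num
    _ = 2 ^ (11 + 15 * h) := by ring
    _ ≤ 2 ^ (cb * h) := by
        apply Nat.pow_le_pow_right (by norm_num)
        simp only [cb]
        omega

theorem T_small (p : PP h rk q Q) {T : ℕ} (hT : T ≤ 2 ^ h) : 20 * T ≤ 2 ^ (rk * pK h rk) := by
  have h1 := p.rk_K_ge
  have h3 := p.h1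
  calc 20 * T ≤ 2 ^ 5 * 2 ^ h := by gcongr; norm_num
    _ = 2 ^ (5 + h) := by rw [pow_add]
    _ ≤ 2 ^ (rk * pK h rk) := by
        apply Nat.pow_le_pow_right (by norm_num)
        refine le_trans ?_ h1
        simp only [ck]
        omega

theorem D_pos (h : ℕ) : 1 ≤ pD h := Nat.one_le_two_pow

end PP

end Vale.Agent.P313.H427
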