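import Vale.Agent.P313.H427.Par1

/-!
Numerical hypotheses of the sampler and of the offsets.
-/

namespace Vale.Agent.P313.H427

namespace PP

variable {h rk q Q : ℕ}

/-- Small numbers. -/
theorem lin_le (h : ℕ) {C : ℕ} (c : ℕ) (hC : C ≤ 2 ^ c) : C * h ≤ 2 ^ (c + h) := by
  rw [pow_add]
  exact Nat.mul_le_mul hC Nat.lt_two_pow_self.le

theorem pow_mono {u v : ℕ} (huv : u ≤ v) : 2 ^ u ≤ 2 ^ v := Nat.pow_le_pow_right (by norm_num) huv

theorem S_le_pow (p : PP h rk q Q) : pS h rk ≤ 2 ^ (4 + h) := p.S_le.trans (lin_le h 4 (by norm_num))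

theorem r_le_pow (p : PP h rk q Q) : pr rk ≤ 2 ^ (5 + h) :=
  p.r_le_h.trans (lin_le h 5 (by norm_num))

/-- The number of offsets is large. -/
theorem D_ge (p : PP h rk q Q) {n : ℕ} (hn : n ≤ 2 ^ h) :
    24 * pS h rk * (pr rk * n * n * 2) * 4 ≤ pD h := by
  have h1 := p.S_le_pow
  have h2 := p.r_le_pow
  have h3 := p.h1
  calc 24 * pS h rk * (pr rk * n * n * 2) * 4
      ≤ 2 ^ 5 * 2 ^ (4 + h) * (2 ^ (5 + h) * 2 ^ h * 2 ^ h * 2 ^ 1) * 2 ^ 2 := by
        gcongr <;> norm_num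
    _ = 2 ^ (17 + 4 * h) := by
        simp only [← pow_add]
        congr 1
        ring
    _ ≤ 2 ^ (cD * h) := pow_mono (by simp only [cD]; omega)

theorem ar_cm_le (p : PP h rk q Q) : ca * pr rk * pcm h rk ≤ 156200 * h := by
  have h1 := p.ar_b_le
  have h2 := p.ar_S_le
  have h3 : ca * pr rk ≤ 10400 * h := by
    have := p.r_le_h
    simp only [ca]
    omega
  calc ca * pr rk * pcm h rk = ca * pr rk * pb h rk + ca * pr rk * pS h rk + ca * pr rk := by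
        unfold pcm; ring
    _ ≤ 10600 * h + 135200 * h + 10400 * h := by omega
    _ = 156200 * h := by ring

theorem pow_cm_le (p : PP h rk q Q) : q ^ pcm h rk ≤ 2 ^ (2 * (156200 * h)) :=
  pow_le (by norm_num) p.r_pos p.q2 p.ar_cm_le

/-- Bound for the functions which are averaged. -/
theorem Bf_le (p : PP h rk q Q) : pr rk * q ^ pcm h rk * (q ^ 34) ^ 2 ≤ 2 ^ (1727000 * h) := by
  have h1 := p.r_le_pow
  have h2 := p.pow_cm_le
  have h3 := p.pow_q_le 68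
  have h4 := p.h1
  calc pr rk * q ^ pcm h rk * (q ^ 34) ^ 2 = pr rk * q ^ pcm h rk * q ^ 68 := by
        rw [← pow_mul]
    _ ≤ 2 ^ (5 + h) * 2 ^ (2 * (156200 * h)) * 2 ^ (20800 * 68 * h) := by gcongr
    _ = 2 ^ (5 + h + 2 * (156200 * h) + 20800 * 68 * h) := by simp only [← pow_add]
    _ ≤ 2 ^ (1727000 * h) := pow_mono (by omega)

theorem Th_le (p : PP h rk q Q) (n : ℕ) : (thePar n h rk q Q).Th ≤ 2 ^ (1021201 * h) := by
  have h1 := p.pow_b_le
  have h2 := p.rk_le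
  rw [Th_eq]
  calc 2 ^ rk * q ^ pb h rk * 2 ^ (cT * h)
      ≤ 2 ^ h * 2 ^ (2 * (10600 * h)) * 2 ^ (cT * h) := by
        gcongr
        norm_num
    _ = 2 ^ (h + 2 * (10600 * h) + cT * h) := by simp only [← pow_add]
    _ ≤ 2 ^ (1021201 * h) := pow_mono (by simp only [cT]; omega)

theorem Th_pos (p : PP h rk q Q) (n : ℕ) : 1 ≤ (thePar n h rk q Q).Th := by
  rw [Th_eq]
  exact Nat.mul_pos (Nat.mul_pos (by positivity) (pow_pos p.q_pos _)) (by positivity)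

theorem DC_le (p : PP h rk q Q) : pDC h rk ≤ 8061 * h := by
  have h1 : pL rk / pc0 h rk ≤ pL rk := Nat.div_le_self _ _
  have h2 := p.r_le_h
  have h3 := p.h1
  unfold pDC
  unfold pL at h1
  unfold pL
  omega

theorem DC_le_pow (p : PP h rk q Q) : pDC h rk ≤ 2 ^ (13 + h) :=
  p.DC_le.trans (lin_le h 13 (by norm_num))

/-- The accuracy of one sample is much better than the grid divided by the number of offsets. -/
theorem acc_le (p : PP h rk q Q) (n : ℕ) :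
    8 * (pr rk * q ^ pcm h rk * (q ^ 34) ^ 2) * pDC h rk * q ^ pc0 h rk *
      (thePar n h rk q Q).Th * pD h ≤ Q := by
  have h1 := p.Bf_le
  have h2 := p.DC_le_pow
  have h3 := p.pow_c0_le
  have h4 := p.Th_le n
  have h5 := p.h1
  refine le_trans ?_ p.Q1
  calc 8 * (pr rk * q ^ pcm h rk * (q ^ 34) ^ 2) * pDC h rk * q ^ pc0 h rk *
      (thePar n h rk q Q).Th * pD h
      ≤ 2 ^ 3 * 2 ^ (1727000 * h) * 2 ^ (13 + h) * 2 ^ (2 * (10401 * h)) * 2 ^ (1021201 * h) *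
        2 ^ (cD * h) := by
        gcongr
        · norm_num
        · exact le_refl _
    _ = 2 ^ (3 + 1727000 * h + (13 + h) + 2 * (10401 * h) + 1021201 * h + cD * h) := by
        simp only [← pow_add]
    _ ≤ 2 ^ (cQ * h) := pow_mono (by simp only [cD, cQ]; omega)

/-- The density of bad lines. -/
theorem mu_le (p : PP h rk q Q) (n : ℕ) :
    (16 * (pr rk * q ^ pcm h rk * (q ^ 34) ^ 2) ^ 2 * (thePar n h rk q Q).Th ^ 2 * pD h ^ 2 +
      2 * pDC h rk) * 2 ^ (94000000 * h) ≤ Q := by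
  have h1 := p.Bf_le
  have h2 := p.DC_le_pow
  have h4 := p.Th_le n
  have h5 := p.h1
  refine le_trans ?_ p.Q1
  have h6 : 16 * (pr rk * q ^ pcm h rk * (q ^ 34) ^ 2) ^ 2 * (thePar n h rk q Q).Th ^ 2 *
      pD h ^ 2 ≤ 2 ^ (5500000 * h) := by
    calc 16 * (pr rk * q ^ pcm h rk * (q ^ 34) ^ 2) ^ 2 * (thePar n h rk q Q).Th ^ 2 * pD h ^ 2
        ≤ 2 ^ 4 * (2 ^ (1727000 * h)) ^ 2 * (2 ^ (1021201 * h)) ^ 2 * (2 ^ (cD * h)) ^ 2 := by
          gcongr
          · norm_num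
          · exact le_refl _
      _ = 2 ^ (4 + 2 * (1727000 * h) + 2 * (1021201 * h) + 2 * (cD * h)) := by
          simp only [← pow_add, ← pow_mul]
          congr 1
          ring
      _ ≤ 2 ^ (5500000 * h) := pow_mono (by simp only [cD]; omega)
  have h7 : 2 * pDC h rk ≤ 2 ^ (5500000 * h) := by
    calc 2 * pDC h rk ≤ 2 ^ 1 * 2 ^ (13 + h) := by gcongr; norm_num
      _ = 2 ^ (1 + (13 + h)) := by simp only [← pow_add]
      _ ≤ _ := pow_mono (by omega)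
  calc _ ≤ (2 ^ (5500000 * h) + 2 ^ (5500000 * h)) * 2 ^ (94000000 * h) :=
        Nat.mul_le_mul_right _ (Nat.add_le_add h6 h7)
    _ = 2 ^ (5500000 * h + 1 + 94000000 * h) := by
        rw [← two_mul, ← pow_succ', ← pow_add]
    _ ≤ 2 ^ (cQ * h) := pow_mono (by simp only [cQ]; omega)

/-- The union bound over all contents of the tape. -/
theorem union_le (p : PP h rk q Q) {n : ℕ} (hn : n ≤ 2 ^ h) :
    8 * (3 * pS h rk * pr rk * n ^ 2) * q ^ pL rk * 2 ^ (plw h rk + 1) ≤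
      2 ^ (94000000 * h * (pDC h rk + 1)) := by
  have h1 := p.S_le_pow
  have h2 := p.r_le_pow
  have h3 := p.h1
  have h4 := L_le h rk
  have h5 := p.pow_c0_le
  have h6 : q ^ pL rk ≤ 2 ^ (20802 * h * pDC h rk) := by
    calc q ^ pL rk ≤ q ^ (pc0 h rk * pDC h rk) := Nat.pow_le_pow_right p.q_pos h4
      _ = (q ^ pc0 h rk) ^ pDC h rk := by rw [pow_mul]
      _ ≤ (2 ^ (2 * (10401 * h))) ^ pDC h rk := Nat.pow_le_pow_left h5 _
      _ = 2 ^ (20802 * h * pDC h rk) := by rw [← pow_mul]; ring_nf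
  calc 8 * (3 * pS h rk * pr rk * n ^ 2) * q ^ pL rk * 2 ^ (plw h rk + 1)
      ≤ 2 ^ 3 * (2 ^ 2 * 2 ^ (4 + h) * 2 ^ (5 + h) * (2 ^ h) ^ 2) *
        2 ^ (20802 * h * pDC h rk) * 2 ^ (plw h rk + 1) := by
        gcongr <;> norm_num
    _ = 2 ^ (14 + 4 * h + 20802 * h * pDC h rk + (plw h rk + 1)) := by
        simp only [← pow_add, ← pow_mul]
        congr 1
        ring
    _ ≤ 2 ^ (94000000 * h * (pDC h rk + 1)) := by
        apply pow_mono
        have h7 : pDC h rk ≤ h * pDC h rk := Nat.le_mul_of_pos_left _ (by omega)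
        have h8 : plw h rk = 2 * pDC h rk := rfl
        rw [h8]
        nlinarith

/-- The accuracy. -/
noncomputable def peps (n h rk q Q : ℕ) : ℝ := 1 / (4 * ((thePar n h rk q Q).Th * pD h : ℕ))

theorem peps_pos (p : PP h rk q Q) (n : ℕ) : 0 < peps n h rk q Q := by
  unfold peps
  have h1 := p.Th_pos n
  have h2 := D_pos h
  have h3 : 1 ≤ (thePar n h rk q Q).Th * pD h := Nat.mul_pos h1 h2
  have h4 : (0 : ℝ) < (((thePar n h rk q Q).Th * pD h : ℕ) : ℝ) := by exact_mod_cast h3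
  positivity

theorem one_add_pow_le {x : ℝ} {m : ℕ} (hx : 0 ≤ x) (hm : m * x ≤ 1) :
    (1 + x) ^ m - 1 ≤ 2 * (m * x) := by
  have h1 : (1 + x) ^ m ≤ Real.exp (m * x) := by
    calc (1 + x) ^ m ≤ (Real.exp x) ^ m := by
          apply pow_le_pow_left₀ (by linarith)
          have := Real.add_one_le_exp x
          linarith
      _ = Real.exp (m * x) := by rw [← Real.exp_nat_mul]
  have h2 : Real.exp (m * x) ≤ 1 + 2 * (m * x) := by
    have h3 := Real.abs_exp_sub_one_le (x := m * x) (by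
      rw [abs_of_nonneg (by positivity)]; exact hm)
    rw [abs_of_nonneg (show (0 : ℝ) ≤ m * x by positivity)] at h3
    have := le_abs_self (Real.exp (m * x) - 1)
    linarith
  linarith

/-- The total error of an estimate, compared with the grid. -/
theorem del_le (p : PP h rk q Q) (n : ℕ) :
    (peps n h rk q Q + ((pr rk * q ^ pcm h rk * (q ^ 34) ^ 2 : ℕ) : ℝ) *
      ((1 + (q : ℝ) ^ pc0 h rk / Q) ^ pDC h rk - 1)) *
      ((thePar n h rk q Q).Th : ℝ) * (pD h : ℝ) ≤ 1 := by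
  set Bf : ℕ := pr rk * q ^ pcm h rk * (q ^ 34) ^ 2 with hBf
  set TD : ℕ := (thePar n h rk q Q).Th * pD h with hTD
  have hTD1 : 1 ≤ TD := Nat.mul_pos (p.Th_pos n) (D_pos h)
  have hTDr : (0 : ℝ) < (TD : ℝ) := by exact_mod_cast hTD1
  have hQ : (0 : ℝ) < (Q : ℝ) := by exact_mod_cast p.Q_pos
  have h1 : 8 * Bf * pDC h rk * q ^ pc0 h rk * TD ≤ Q := by
    have := p.acc_le n
    rw [hTD, ← mul_assoc]
    exact this
  have hBf1 : 1 ≤ Bf := Nat.mul_pos (Nat.mul_pos p.r_pos (pow_pos p.q_pos _))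
    (pow_pos (pow_pos p.q_pos _) _)
  set x : ℝ := (q : ℝ) ^ pc0 h rk / Q with hx
  have hx0 : 0 ≤ x := by positivity
  have h2 : 8 * (Bf : ℝ) * (pDC h rk * x) * TD ≤ 1 := by
    have h3 : (8 * (Bf : ℝ) * pDC h rk * (q : ℝ) ^ pc0 h rk * TD) ≤ Q := by exact_mod_cast h1
    have h4 : 8 * (Bf : ℝ) * (pDC h rk * x) * TD =
        (8 * (Bf : ℝ) * pDC h rk * (q : ℝ) ^ pc0 h rk * TD) / Q := by
      rw [hx]; field_simp
    rw [h4, div_le_one hQ]
    exact h3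
  have hBfr : (1 : ℝ) ≤ Bf := by exact_mod_cast hBf1
  have hTDr1 : (1 : ℝ) ≤ TD := by exact_mod_cast hTD1
  have h5 : (pDC h rk : ℝ) * x ≤ 1 := by
    have h6 : 0 ≤ (pDC h rk : ℝ) * x := by positivity
    have h7 : (pDC h rk : ℝ) * x ≤ 8 * (Bf : ℝ) * (pDC h rk * x) * TD := by
      have h8 : (1 : ℝ) ≤ 8 * Bf * TD := by nlinarith
      calc (pDC h rk : ℝ) * x = 1 * (pDC h rk * x) := by ring
        _ ≤ (8 * Bf * TD) * (pDC h rk * x) := mul_le_mul_of_nonneg_right h8 h6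
        _ = _ := by ring
    linarith
  have h6 := one_add_pow_le hx0 h5
  have h7 : (peps n h rk q Q) * TD = 1 / 4 := by
    unfold peps
    rw [← hTD]
    field_simp
  have h8 : (Bf : ℝ) * ((1 + x) ^ pDC h rk - 1) * TD ≤ 1 / 4 := by
    have h9 : (Bf : ℝ) * ((1 + x) ^ pDC h rk - 1) * TD ≤
        (Bf : ℝ) * (2 * (pDC h rk * x)) * TD := by
      gcongr
    linarith
  have h9 : (peps n h rk q Q + (Bf : ℝ) * ((1 + x) ^ pDC h rk - 1)) *
      ((thePar n h rk q Q).Th : ℝ) * (pD h : ℝ) =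
      (peps n h rk q Q) * TD + (Bf : ℝ) * ((1 + x) ^ pDC h rk - 1) * TD := by
    rw [hTD]
    push_cast
    ring
  rw [h9]
  linarith

/-- The union bound. -/
theorem union_real (p : PP h rk q Q) {n : ℕ} (hn : n ≤ 2 ^ h) :
    8 * (3 * (pS h rk : ℝ) * pr rk * n ^ 2) * (q : ℝ) ^ pL rk * 2 ^ (plw h rk + 1) *
      (((pr rk * q ^ pcm h rk * (q ^ 34) ^ 2 : ℕ) : ℝ) ^ 2 / (peps n h rk q Q ^ 2 * Q) +
        2 * (pDC h rk : ℝ) / Q) ^ (pDC h rk + 1) ≤ 1 := by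
  set Bf : ℕ := pr rk * q ^ pcm h rk * (q ^ 34) ^ 2 with hBf
  set TD : ℕ := (thePar n h rk q Q).Th * pD h with hTD
  have hTD1 : 1 ≤ TD := Nat.mul_pos (p.Th_pos n) (D_pos h)
  have hTDr : (0 : ℝ) < (TD : ℝ) := by exact_mod_cast hTD1
  have hQ : (0 : ℝ) < (Q : ℝ) := by exact_mod_cast p.Q_pos
  have h1 : (16 * Bf ^ 2 * TD ^ 2 + 2 * pDC h rk) * 2 ^ (94000000 * h) ≤ Q := by
    have := p.mu_le n
    rw [← hBf, mul_assoc (16 * Bf ^ 2), ← mul_pow, ← hTD] at this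
    exact this
  have h2 : (Bf : ℝ) ^ 2 / (peps n h rk q Q ^ 2 * Q) + 2 * (pDC h rk : ℝ) / Q =
      (16 * (Bf : ℝ) ^ 2 * TD ^ 2 + 2 * pDC h rk) / Q := by
    unfold peps
    rw [← hTD]
    field_simp
    ring
  have h3 : (Bf : ℝ) ^ 2 / (peps n h rk q Q ^ 2 * Q) + 2 * (pDC h rk : ℝ) / Q ≤
      1 / 2 ^ (94000000 * h) := by
    rw [h2, div_le_div_iff₀ hQ (by positivity), one_mul]
    exact_mod_cast h1
  have h4 : (8 * (3 * (pS h rk : ℝ) * pr rk * n ^ 2) * (q : ℝ) ^ pL rk * 2 ^ (plw h rk + 1)) ≤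
      2 ^ (94000000 * h * (pDC h rk + 1)) := by
    have := p.union_le hn
    exact_mod_cast this
  have h5 : (0 : ℝ) ≤ (Bf : ℝ) ^ 2 / (peps n h rk q Q ^ 2 * Q) + 2 * (pDC h rk : ℝ) / Q := by
    positivity
  have h6 := mul_le_mul h4 (pow_le_pow_left₀ h5 h3 (pDC h rk + 1)) (by positivity) (by positivity)
  refine h6.trans (le_of_eq ?_)
  rw [div_pow, one_pow, ← pow_mul, mul_one_div, div_self (by positivity)]

theorem two_DC_le (p : PP h rk q Q) : pDC h rk + pDC h rk ≤ Q := by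
  have h1 := p.DC_le_pow
  have h2 := p.h1
  refine le_trans ?_ p.Q1
  calc pDC h rk + pDC h rk ≤ 2 ^ (13 + h) + 2 ^ (13 + h) := Nat.add_le_add h1 h1
    _ = 2 ^ (13 + h + 1) := by rw [← two_mul, ← pow_succ']
    _ ≤ 2 ^ (cQ * h) := pow_mono (by simp only [cQ]; omega)

end PP

end Vale.Agent.P313.H427
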