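import Vale.Agent.P313.BundleTS
import Vale.Agent.P313.H427.Par2

/-!
The parameters as functions of the input, computable in logarithmic space; the static digits; the
size of the padding.
-/

namespace Vale.Agent.P313.H427

open Sel (LFx)

/-- Integer cube root of `h ^ 2 (log h + 1)`. -/
noncomputable def rkf (h : ℕ) : ℕ := rt 1 3 (h ^ 2 * (Nat.log 2 h + 1))

/-- The prime `q`. -/
noncomputable def qf (h : ℕ) : ℕ := nxp (2 ^ (ca * pr (rkf h)))

/-- The prime `Q`. -/
noncomputable def Qf (h : ℕ) : ℕ := nxp (2 ^ (cQ * h))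

theorem cb_rkf {h : ℕ} (h1 : 1 ≤ h) : Cb h (rkf h) := by
  obtain ⟨h2, h3⟩ := rt_spec (a := 1) (b := 3) (L := h ^ 2 * (Nat.log 2 h + 1)) (by norm_num)
  rw [pow_one] at h2 h3
  exact ⟨h1, h2, h3⟩

/-- The basic facts hold. -/
theorem pp_all {h : ℕ} (h1 : 1 ≤ h) : PP h (rkf h) (qf h) (Qf h) := by
  have hq := nxp_spec (m := 2 ^ (ca * pr (rkf h))) Nat.one_le_two_pow
  have hQ := nxp_spec (m := 2 ^ (cQ * h)) Nat.one_le_two_pow
  exact { cb_rkf h1 with
    qp := hq.1
    q1 := hq.2.1
    q2 := hq.2.2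
    Qp := hQ.1
    Q1 := hQ.2.1
    Q2 := hQ.2.2 }

/-- Static digits: the parameters, the offsets, the seed of the sampler; `sd` is the number of the
seed. -/
def statN (p : BP.Par2) (sd j : ℕ) : ℕ :=
  if j = 0 then p.n else if j = 1 then p.q else if j = 2 then p.b else if j = 3 then p.r
  else if j = 4 then p.rk else if j = 5 then p.K else if j = 6 then p.Th1
  else if j = 7 then p.D else if j = 8 then p.JF else if j = 9 then p.JN
  else if j = 10 then p.Th else if j = 11 then p.cmax else if j = 12 then p.nd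
  else if j = 13 then p.Lam else if j = 14 then p.Q else if j = 15 then p.DC
  else if j = 16 then p.c0 else if j = 17 then p.lw else if j = 18 then p.Om
  else if j = 19 then p.m else if j = 20 then p.S
  else if j < 64 then 0
  else if j < 64 + 3 * p.S then sd / p.D ^ (j - 64) % p.D
  else sd / p.D ^ (3 * p.S) / p.Q ^ (j - (64 + 3 * p.S)) % p.Q

section mach

variable (M : RTM) (c : ℕ)

/-- The number of bits. -/
noncomputable def hh (x : List Bool) : ℕ := Sel.sh M c x

/-- The parameters for an input. -/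
noncomputable def parx (x : List Bool) : BP.Par2 :=
  thePar (Sel.sN M c x + 1) (hh M c x) (rkf (hh M c x)) (qf (hh M c x)) (Qf (hh M c x))

variable {M c}

theorem hh_pos (x : List Bool) : 1 ≤ hh M c x := by
  have := Sel.five_le_h (M := M) (c := c) x
  unfold hh
  omega

theorem ppx (x : List Bool) :
    PP (hh M c x) (rkf (hh M c x)) (qf (hh M c x)) (Qf (hh M c x)) := pp_all (hh_pos x)

theorem n_le (x : List Bool) : (parx M c x).n ≤ 2 ^ hh M c x := Sel.N_lt x

theorem T_le (x : List Bool) : Sel.sT c x ≤ 2 ^ hh M c x := by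
  refine le_trans ?_ (Sel.NT_lt' (M := M) (c := c) x).le
  exact Nat.le_mul_of_pos_left _ (by have := Sel.sN_pos (M := M) (c := c) x; omega)

theorem len_le (x : List Bool) : x.length + 2 ≤ 2 ^ hh M c x := (Sel.n_lt x).le

theorem lfx_hh : LFx (hh M c) := Sel.lfx_h

/-- Powers of two with exponent `O(h)`. -/
theorem lfx_two_pow {f : List Bool → ℕ} (hf : LFx f) {d : ℕ} (hd : ∀ x, f x ≤ d * hh M c x) :
    LFx (fun x => 2 ^ f x) := by
  refine LF.pow (LF.const 2) hf ?_
  have h1 : LFx (fun x => (x.length + 2) * (Sel.sN M c x * Sel.sT c x)) :=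
    (LF.len.add (LF.const 2)).mul (LF.mul Sel.lfx_N Sel.lfx_T)
  exact (Sel.two_pow_log (k := 0) (LF.pb h1) d).of_le
    (fun x _ => Nat.pow_le_pow_right (by norm_num) (hd x))

theorem lfx_rk : LFx (fun x => rkf (hh M c x)) := by
  unfold Sel.LFx rkf rt
  have hH : ∀ m, LF (fun x _ => hh M c x : Fn m) := fun m => lfx_hh.lf m
  have hL : ∀ m, LF (fun x _ => hh M c x ^ 2 * (Nat.log 2 (hh M c x) + 1) : Fn m) := fun m =>
    ((hH m).powConst 2).mul (LF.log2 (hH m)).succ
  have h1 := LF.least (k := 0)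
    (n := fun x _ => (hh M c x ^ 2 * (Nat.log 2 (hh M c x) + 1)) ^ 1 + 1)
    (P := fun x a => (hh M c x ^ 2 * (Nat.log 2 (hh M c x) + 1)) ^ 1 < (a 0 + 1) ^ 3)
    (LFP.lt ((hL 1).powConst 1) ((LF.proj 0).succ.powConst 3)) ((hL 0).powConst 1).succ
  refine h1.congr (fun x a => ?_)
  simp only [Fin.cons_zero]

theorem lfx_r : LFx (fun x => pr (rkf (hh M c x))) := by
  unfold pr rr
  exact (LF.add (LF.add lfx_rk (LF.log2 lfx_rk)) (LF.const ce))

theorem lfx_q : LFx (fun x => qf (hh M c x)) := by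
  unfold qf
  refine Q.lf_nxp (lfx_two_pow (M := M) (c := c) (LF.mul (LF.const ca) lfx_r) (d := 10400)
    (fun x => ?_))
  have := (ppx (M := M) (c := c) x).r_le_h
  simp only [ca]
  omega

theorem lfx_Q : LFx (fun x => Qf (hh M c x)) := by
  unfold Qf
  exact Q.lf_nxp (lfx_two_pow (M := M) (c := c) (LF.mul (LF.const cQ) lfx_hh) (d := cQ)
    (fun x => le_rfl))

theorem lfx_b : LFx (fun x => pb (hh M c x) (rkf (hh M c x))) := by
  unfold pb
  exact ((LF.mul (LF.const cb) lfx_hh).div (LF.mul (LF.const ca) lfx_r)).succ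

theorem lfx_K : LFx (fun x => pK (hh M c x) (rkf (hh M c x))) := by
  unfold pK
  exact ((LF.mul (LF.const ck) lfx_hh).div lfx_rk).succ

theorem lfx_S : LFx (fun x => pS (hh M c x) (rkf (hh M c x))) := by
  unfold pS
  exact LF.add lfx_K (((LF.mul (LF.const 2) lfx_hh).div (LF.mul (LF.const ca) lfx_r)).add
    (LF.const 2))

theorem lfx_Th1 : LFx (fun x => pTh1 (hh M c x)) :=
  lfx_two_pow (M := M) (c := c) (LF.mul (LF.const cT) lfx_hh) (d := cT) (fun _ => le_rfl)

theorem lfx_D : LFx (fun x => pD (hh M c x)) :=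
  lfx_two_pow (M := M) (c := c) (LF.mul (LF.const cD) lfx_hh) (d := cD) (fun _ => le_rfl)

theorem lfx_Om : LFx (fun x => 2 ^ (cO * hh M c x)) :=
  lfx_two_pow (M := M) (c := c) (LF.mul (LF.const cO) lfx_hh) (d := cO) (fun _ => le_rfl)

theorem lfx_JF : LFx (fun x => pJF (rkf (hh M c x))) := by
  unfold pJF
  exact (LF.log2 lfx_r).succ

theorem lfx_JN : LFx (fun x => pJN (hh M c x)) := by
  unfold pJN
  exact (LF.log2 lfx_hh).add (LF.const cJ)

theorem lfx_cm : LFx (fun x => pcm (hh M c x) (rkf (hh M c x))) := by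
  unfold pcm
  exact (LF.add lfx_b lfx_S).succ

theorem lfx_nd : LFx (fun x => pnd (hh M c x) (rkf (hh M c x))) := by
  unfold pnd
  exact (LF.div lfx_hh (LF.mul (LF.const ca) lfx_r)).succ

theorem lfx_c0 : LFx (fun x => pc0 (hh M c x) (rkf (hh M c x))) := lfx_nd

theorem lfx_L : LFx (fun x => pL (rkf (hh M c x))) := by
  unfold pL
  exact LF.mul (LF.const 310) lfx_r

theorem lfx_DC : LFx (fun x => pDC (hh M c x) (rkf (hh M c x))) := by
  unfold pDC
  exact (LF.div lfx_L lfx_c0).succ

theorem lfx_lw : LFx (fun x => plw (hh M c x) (rkf (hh M c x))) := by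
  unfold plw
  exact LF.mul (LF.const 2) lfx_DC

theorem lfx_m : LFx (fun x => pm (hh M c x) (rkf (hh M c x))) := by
  unfold pm
  exact ((LF.const 17).add (LF.mul (LF.const 2) lfx_JF)).add (LF.mul (LF.const 2) lfx_JN)

theorem lfx_Lam : LFx (fun x => qf (hh M c x) ^ 34) := LF.powConst lfx_q 34

theorem lfx_powb : LFx (fun x => qf (hh M c x) ^ pb (hh M c x) (rkf (hh M c x))) := by
  have h1 : LFx (fun x => 2 ^ (2 * (10600 * hh M c x))) :=
    lfx_two_pow (M := M) (c := c) (LF.mul (LF.const 2) (LF.mul (LF.const 10600) lfx_hh))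
      (d := 21200) (fun x => by omega)
  have h2 : PB (fun x _ => qf (hh M c x) ^ pb (hh M c x) (rkf (hh M c x)) : Fn 0) :=
    PB.of_le (LF.pb h1) (fun x _ => (ppx (M := M) (c := c) x).pow_b_le)
  exact LF.pow lfx_q lfx_b h2

theorem lfx_Th : LFx (fun x => (parx M c x).Th) := by
  have h1 : LFx (fun x => 2 ^ rkf (hh M c x)) :=
    lfx_two_pow (M := M) (c := c) lfx_rk (d := 1)
      (fun x => by rw [one_mul]; exact (ppx (M := M) (c := c) x).rk_le)
  have h2 := LF.mul (LF.mul h1 (lfx_powb (M := M) (c := c))) (lfx_Th1 (M := M) (c := c))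
  refine LF.congr h2 (fun x _ => ?_)
  simp only [BP.Par.Th, parx, thePar]

/-- The static digits are computable in logarithmic space, the seed is an argument. -/
theorem lf_stat {k : ℕ} {sd j : Fn k} (hsd : LF sd) (hj : LF j) :
    LF (fun x a => statN (parx M c x) (sd x a) (j x a)) := by
  unfold statN
  have hc : ∀ i, LFP (fun x a => j x a = i) := fun i => LFP.eq hj (LF.const i)
  have h0 : LF (fun x _ => (parx M c x).n : Fn k) :=
    ((Sel.lfx_N (M := M) (c := c)).lf k).succ.congr (fun _ _ => by simp only [parx, thePar])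
  have h1 : LF (fun x _ => (parx M c x).q : Fn k) := ((lfx_q (M := M) (c := c)).lf k).congr (fun _ _ => by simp only [parx, thePar])
  have h2 : LF (fun x _ => (parx M c x).b : Fn k) := ((lfx_b (M := M) (c := c)).lf k).congr (fun _ _ => by simp only [parx, thePar])
  have h3 : LF (fun x _ => (parx M c x).r : Fn k) := ((lfx_r (M := M) (c := c)).lf k).congr (fun _ _ => by simp only [parx, thePar])
  have h4 : LF (fun x _ => (parx M c x).rk : Fn k) := ((lfx_rk (M := M) (c := c)).lf k).congr (fun _ _ => by simp only [parx, thePar])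
  have h5 : LF (fun x _ => (parx M c x).K : Fn k) := ((lfx_K (M := M) (c := c)).lf k).congr (fun _ _ => by simp only [parx, thePar])
  have h6 : LF (fun x _ => (parx M c x).Th1 : Fn k) := ((lfx_Th1 (M := M) (c := c)).lf k).congr (fun _ _ => by simp only [parx, thePar])
  have h7 : LF (fun x _ => (parx M c x).D : Fn k) := ((lfx_D (M := M) (c := c)).lf k).congr (fun _ _ => by simp only [parx, thePar])
  have h8 : LF (fun x _ => (parx M c x).JF : Fn k) := ((lfx_JF (M := M) (c := c)).lf k).congr (fun _ _ => by simp only [parx, thePar])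
  have h9 : LF (fun x _ => (parx M c x).JN : Fn k) := ((lfx_JN (M := M) (c := c)).lf k).congr (fun _ _ => by simp only [parx, thePar])
  have h10 : LF (fun x _ => (parx M c x).Th : Fn k) := (lfx_Th (M := M) (c := c)).lf k
  have h11 : LF (fun x _ => (parx M c x).cmax : Fn k) := ((lfx_cm (M := M) (c := c)).lf k).congr (fun _ _ => by simp only [parx, thePar])
  have h12 : LF (fun x _ => (parx M c x).nd : Fn k) := ((lfx_nd (M := M) (c := c)).lf k).congr (fun _ _ => by simp only [parx, thePar])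
  have h13 : LF (fun x _ => (parx M c x).Lam : Fn k) := ((lfx_Lam (M := M) (c := c)).lf k).congr (fun _ _ => by simp only [parx, thePar])
  have h14 : LF (fun x _ => (parx M c x).Q : Fn k) := ((lfx_Q (M := M) (c := c)).lf k).congr (fun _ _ => by simp only [parx, thePar])
  have h15 : LF (fun x _ => (parx M c x).DC : Fn k) := ((lfx_DC (M := M) (c := c)).lf k).congr (fun _ _ => by simp only [parx, thePar])
  have h16 : LF (fun x _ => (parx M c x).c0 : Fn k) := ((lfx_c0 (M := M) (c := c)).lf k).congr (fun _ _ => by simp only [parx, thePar])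
  have h17 : LF (fun x _ => (parx M c x).lw : Fn k) := ((lfx_lw (M := M) (c := c)).lf k).congr (fun _ _ => by simp only [parx, thePar])
  have h18 : LF (fun x _ => (parx M c x).Om : Fn k) := ((lfx_Om (M := M) (c := c)).lf k).congr (fun _ _ => by simp only [parx, thePar])
  have h19 : LF (fun x _ => (parx M c x).m : Fn k) := ((lfx_m (M := M) (c := c)).lf k).congr (fun _ _ => by
    simp only [parx, thePar, BP.Par2.m, BP.nph, pm])
  have h20 : LF (fun x _ => (parx M c x).S : Fn k) := ((lfx_S (M := M) (c := c)).lf k).congr (fun _ _ => by simp only [parx, thePar])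
  have hS : LF (fun x _ => 3 * (parx M c x).S : Fn k) := (LF.const 3).mul h20
  have h64 : LF (fun x _ => 64 + 3 * (parx M c x).S : Fn k) := (LF.const 64).add hS
  have ho : LF (fun x a => sd x a / (parx M c x).D ^ (j x a - 64) % (parx M c x).D) :=
    (Q.lf_divPow h7 hsd (hj.sub (LF.const 64))).mod h7
  have hw : LF (fun x a => sd x a / (parx M c x).D ^ (3 * (parx M c x).S) /
      (parx M c x).Q ^ (j x a - (64 + 3 * (parx M c x).S)) % (parx M c x).Q) :=
    (Q.lf_divPow h14 (Q.lf_divPow h7 hsd hS) (hj.sub h64)).mod h14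
  exact LF.ite (hc 0) h0 (LF.ite (hc 1) h1 (LF.ite (hc 2) h2 (LF.ite (hc 3) h3
    (LF.ite (hc 4) h4 (LF.ite (hc 5) h5 (LF.ite (hc 6) h6 (LF.ite (hc 7) h7 (LF.ite (hc 8) h8
    (LF.ite (hc 9) h9 (LF.ite (hc 10) h10 (LF.ite (hc 11) h11 (LF.ite (hc 12) h12
    (LF.ite (hc 13) h13 (LF.ite (hc 14) h14 (LF.ite (hc 15) h15 (LF.ite (hc 16) h16
    (LF.ite (hc 17) h17 (LF.ite (hc 18) h18 (LF.ite (hc 19) h19 (LF.ite (hc 20) h20
    (LF.ite (LFP.lt hj (LF.const 64)) LF.zero (LF.ite (LFP.lt hj h64) ho hw))))))))))))))))))))))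

end mach

end Vale.Agent.P313.H427
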